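import Mathlib

namespace Vale.Agent.P257.S

open MvPolynomial TensorProduct CategoryTheory Limits Pretriangulated Finset

universe v' u

/-- The degree of `v_n` and of `t_n`: `2 (p ^ n - 1)`. -/
def vdeg (p n : ℕ) : ℤ := 2 * ((p : ℤ) ^ n - 1)

/-- `c, X 0, X 1, ...`: used for `v_0 = p, v_1, v_2, ...` in `BP_* = R[v_1, v_2, ...]` and for
`t_0 = 1, t_1, t_2, ...` in `BP_*BP = BP_*[t_1, t_2, ...]`. -/
noncomputable def gen {A : Type} [CommRing A] (c : A) (n : ℕ) :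
    MvPolynomial ℕ A := if n = 0 then C c else X (n - 1)

/-- `BP_*` with the elements `v_n`, and the right unit `η` and the coproduct `Δ` of
`BP_*BP = BP_*[t_1, t_2, ...]`, where
`l n = p ^ n l_n` and `l_n` are the coefficients of the logarithm. -/
structure BPBP (p : ℕ) (A : Type) [CommRing A] where
  v : ℕ → A
  l : ℕ → A
  η : A →+* MvPolynomial ℕ A
  Δ : MvPolynomial ℕ A →ₐ[A] MvPolynomial (ℕ ⊕ ℕ) A
  log_zero : l 0 = 1
  log_succ : ∀ n, l (n + 1) = ∑ i ∈ range (n + 1), p ^ (n - i) * l i * v (n + 1 - i) ^ p ^ i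
  unit : ∀ n, η (l n) = ∑ i ∈ range (n + 1), C (p ^ (n - i) * l i) * gen 1 (n - i) ^ p ^ i
  coproduct : ∀ n, ∑ i ∈ range (n + 1), C (p ^ (n - i) * l i) * Δ (gen 1 (n - i)) ^ p ^ i =
    ∑ i ∈ range (n + 1), ∑ j ∈ range (n + 1 - i), C (p ^ (n - i) * l i) *
      rename Sum.inl (gen 1 j) ^ p ^ i * rename Sum.inr (gen 1 (n - i - j)) ^ p ^ (i + j)

/-- A structure of graded `BP_*BP`-comodule on the `BP_*`-module `M`. -/
structure Comod {p : ℕ} {A : Type} [CommRing A] (B : BPBP p A) (M : ModuleCat.{0} A) where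
  deg : ℤ → AddSubgroup M
  internal : DirectSum.IsInternal deg
  smul_mem : ∀ n j, ∀ x ∈ deg j, B.v n • x ∈ deg (j + vdeg p n)
  ψ : M → MvPolynomial ℕ A ⊗[A] M
  mem : ∀ j, ∀ x ∈ deg j, ∃ n, ∃ e : ℕ → ℕ →₀ ℕ, ∃ y : ℕ → M,
    ψ x = ∑ i ∈ range n, monomial (e i) 1 ⊗ₜ y i ∧
    ∀ i, y i ∈ deg (j - (e i).sum fun k m => m * vdeg p (k + 1))
  add : ∀ x y, ψ (x + y) = ψ x + ψ y
  smul : ∀ (a : A) x, ψ (a • x) = B.η a • ψ x
  counit : ∀ x n (g : ℕ → MvPolynomial ℕ A) (y : ℕ → M), ψ x = ∑ i ∈ range n, g i ⊗ₜ y i → ∑ i ∈ range n, constantCoeff (g i) • y i = x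
  coassoc : ∀ x n (g : ℕ → MvPolynomial ℕ A) (y : ℕ → M) m (g' : ℕ → ℕ → MvPolynomial ℕ A) (y' : ℕ → ℕ → M), ψ x = ∑ i ∈ range n, g i ⊗ₜ y i →
    (∀ i < n, ψ (y i) = ∑ j ∈ range m, g' i j ⊗ₜ y' i j) →
    ∑ i ∈ range n, B.Δ (g i) ⊗ₜ[A] y i = ∑ i ∈ range n, ∑ j ∈ range m,
      (eval₂Hom ((rename Sum.inl).toRingHom.comp B.η) (fun k => X (Sum.inr k)) (g i) *
        rename Sum.inl (g' i j)) ⊗ₜ y' i j

variable {p : ℕ} {A : Type} [CommRing A] {B : BPBP p A} {M N : ModuleCat.{0} A}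

/-- `f` is a morphism of graded comodules, of degree `k`. -/
def IsHom (C : Comod B M) (D : Comod B N) (k : ℤ) (f : M ⟶ N) : Prop :=
  (∀ j, ∀ x ∈ C.deg j, f.hom x ∈ D.deg (j + k)) ∧
    ∀ x n (g : ℕ → MvPolynomial ℕ A) (y : ℕ → M), C.ψ x = ∑ i ∈ range n, g i ⊗ₜ y i → D.ψ (f.hom x) = ∑ i ∈ range n, g i ⊗ₜ f.hom (y i)

/-- `M` is `BP_* / (v_0, ..., v_(n-1))` on the generator `g` of degree `k`. -/
def IsCyclic (C : Comod B M) (n : ℕ) (k : ℤ) (g : M) : Prop :=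
  g ∈ C.deg k ∧ C.ψ g = 1 ⊗ₜ g ∧ (∀ x, ∃ a : A, x = a • g) ∧
    ∀ a : A, a • g = 0 ↔ a ∈ Ideal.span {b | ∃ i < n, b = B.v i}

variable {T : Type u} [Category.{v'} T] [Preadditive T] [HasShift T ℤ]

/-- `S` has the properties of the sphere spectrum and `h` those of `BP`-homology. -/
structure IsBPHomology [HasCountableCoproducts T] (S : T)
    (h : T ⥤ ModuleCat.{0} A) (C : ∀ X, Comod B (h.obj X)) : Prop where
  endSphere : Nonempty (End S ≃+* ℤ)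
  connective : ∀ n : ℤ, 0 < n → ∀ f : S ⟶ S⟦n⟧, f = 0
  compact : PreservesColimitsOfShape (Discrete ℕ) (preadditiveCoyoneda.obj (Opposite.op S))
  detects : ∀ X : T, (∀ (n : ℤ) (f : S⟦n⟧ ⟶ X), f = 0) → IsZero X
  hom : ∀ X Y f, IsHom (C X) (C Y) 0 (h.map f)
  susp : ∃ σ : h ≅ shiftFunctor T (1 : ℤ) ⋙ h, ∀ X, IsHom (C X) (C (X⟦(1 : ℤ)⟧)) 1 (σ.hom.app X)
  sphere : ∃ g, IsCyclic (C S) 0 0 g

end Vale.Agent.P257.S
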